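import Vale.Agent.P082.Avg.Tools

/-!
# The harmonic average of a map
-/

namespace Vale.Agent.P082.Avg

open scoped InnerProductSpace Topology
open Filter

universe u

variable {H : Type u} [NormedAddCommGroup H] [InnerProductSpace ℂ H] [CompleteSpace H]
variable {M : VonNeumannAlgebra H}

/-- `E φ(a y) y*` after `n` steps. -/
noncomputable def stepAvg (W : Walk M) (φ : Alg M →L[ℂ] Alg M) (a : Alg M) (n : ℕ) : Alg M :=
  avg fun y : Fin n → Fin W.size => φ (a * W.word y) * star (W.word y)

/-- The Cesàro means of `stepAvg`. -/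
noncomputable def cesaro (W : Walk M) (φ : Alg M →L[ℂ] Alg M) (a : Alg M) (S : ℕ) : Alg M :=
  avg fun n : Fin (S + 1) => stepAvg W φ a n

variable (W : Walk M) (φ ψ : Alg M →L[ℂ] Alg M) (a b c : Alg M)

theorem norm_stepAvg_le (n : ℕ) : ‖stepAvg W φ a n‖ ≤ ‖φ‖ * ‖a‖ := by
  have := nonempty_word W n
  refine norm_avg_le fun y => ?_
  rw [CStarRing.norm_mul_mem_unitary _ (Unitary.star_mem (word_mem W y))]
  refine (φ.le_opNorm _).trans (le_of_eq ?_)
  rw [CStarRing.norm_mul_mem_unitary _ (word_mem W y)]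

theorem norm_cesaro_le (S : ℕ) : ‖cesaro W φ a S‖ ≤ ‖φ‖ * ‖a‖ :=
  norm_avg_le fun _ => norm_stepAvg_le W φ a _

/-- The ultrafilter of the limit. -/
noncomputable def ult : Ultrafilter ℕ := Ultrafilter.of atTop

/-- The weak limit of the Cesàro means. -/
noncomputable def avgLim : Alg M :=
  Classical.choose (exists_wLim ult (cesaro W φ a) (norm_cesaro_le W φ a))

theorem isWLim_avgLim : IsWLim ult (cesaro W φ a) (avgLim W φ a) :=
  (Classical.choose_spec (exists_wLim ult (cesaro W φ a) (norm_cesaro_le W φ a))).1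

theorem norm_avgLim_le : ‖avgLim W φ a‖ ≤ ‖φ‖ * ‖a‖ :=
  (Classical.choose_spec (exists_wLim ult (cesaro W φ a) (norm_cesaro_le W φ a))).2

theorem avgLim_eq {x : Alg M} (h : IsWLim ult (cesaro W φ a) x) : avgLim W φ a = x :=
  (isWLim_avgLim W φ a).unique h

theorem cesaro_add_left (S : ℕ) :
    cesaro W (φ + ψ) a S = cesaro W φ a S + cesaro W ψ a S := by
  simp only [cesaro, stepAvg, avg, add_apply, add_mul, Finset.sum_add_distrib, smul_add]

theorem cesaro_smul_left (k : ℂ) (S : ℕ) : cesaro W (k • φ) a S = k • cesaro W φ a S := by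
  simp only [cesaro, stepAvg, avg, smul_apply, smul_mul_assoc, Finset.smul_sum, smul_smul,
    mul_comm k, mul_assoc]

theorem cesaro_add_right (S : ℕ) :
    cesaro W φ (a + b) S = cesaro W φ a S + cesaro W φ b S := by
  simp only [cesaro, stepAvg, avg, add_mul, map_add, Finset.sum_add_distrib, smul_add]

theorem cesaro_smul_right (k : ℂ) (S : ℕ) : cesaro W φ (k • a) S = k • cesaro W φ a S := by
  simp only [cesaro, stepAvg, avg, smul_mul_assoc, map_smul, Finset.smul_sum, smul_smul,
    mul_comm k, mul_assoc]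

/-- The average as a bounded map. -/
noncomputable def avgMap : Alg M →L[ℂ] Alg M :=
  LinearMap.mkContinuous
    { toFun := avgLim W φ
      map_add' := fun a b => avgLim_eq W φ _ <| by
        rw [funext (cesaro_add_right W φ a b)]
        exact (isWLim_avgLim W φ a).add (isWLim_avgLim W φ b)
      map_smul' := fun k a => avgLim_eq W φ _ <| by
        rw [funext (cesaro_smul_right W φ a k)]
        exact (isWLim_avgLim W φ a).smul k }
    ‖φ‖ (norm_avgLim_le W φ)

theorem avgMap_apply : avgMap W φ a = avgLim W φ a := rfl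

/-- The average, linearly in the map. -/
noncomputable def G : (Alg M →L[ℂ] Alg M) →ₗ[ℂ] (Alg M →L[ℂ] Alg M) where
  toFun := avgMap W
  map_add' φ ψ := ContinuousLinearMap.ext fun a => avgLim_eq W _ a <| by
    rw [funext (cesaro_add_left W φ ψ a)]
    exact (isWLim_avgLim W φ a).add (isWLim_avgLim W ψ a)
  map_smul' k φ := ContinuousLinearMap.ext fun a => avgLim_eq W _ a <| by
    rw [funext (cesaro_smul_left W φ a k)]
    exact (isWLim_avgLim W φ a).smul k

theorem stepAvg_succ (n : ℕ) :
    avg (fun i => stepAvg W φ (a * W.g i) n * star (W.g i)) = stepAvg W φ a (n + 1) := by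
  unfold stepAvg
  rw [← avg_equiv (Fin.consEquiv fun _ => Fin W.size), avg_prod]
  refine avg_congr fun i => ?_
  rw [← LinearMap.mulRight_apply ℂ, avg_map]
  refine avg_congr fun y => ?_
  rw [LinearMap.mulRight_apply, show (Fin.consEquiv fun _ => Fin W.size) (i, y) = Fin.cons i y
    from rfl, word_cons, star_mul, mul_assoc a, mul_assoc (φ _)]

theorem G_harm : G W φ a = avg fun i => G W φ (a * W.g i) * star (W.g i) := by
  have hw : IsWLim ult (fun S => avg fun i => cesaro W φ (a * W.g i) S * star (W.g i))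
      (avg fun i => G W φ (a * W.g i) * star (W.g i)) :=
    IsWLim.avg fun i => (isWLim_avgLim W φ (a * W.g i)).mul_right _
  refine avgLim_eq W φ a (hw.congr_of_norm ?_)
  have e : ∀ S, ‖(avg fun i => cesaro W φ (a * W.g i) S * star (W.g i)) - cesaro W φ a S‖ ≤
      2 * (‖φ‖ * ‖a‖) / ((S : ℝ) + 1) := by
    intro S
    have : (avg fun i => cesaro W φ (a * W.g i) S * star (W.g i)) - cesaro W φ a S =
        ((S : ℂ) + 1)⁻¹ • (stepAvg W φ a (S + 1) - stepAvg W φ a 0) := by
      rw [← Finset.sum_range_sub, ← Fin.sum_univ_eq_sum_range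
        (fun k => stepAvg W φ a (k + 1) - stepAvg W φ a k), Finset.sum_sub_distrib, smul_sub]
      congr 1
      · simp only [← stepAvg_succ, cesaro, avg, Fintype.card_fin, Nat.cast_succ,
          smul_mul_assoc, Finset.sum_mul, Finset.smul_sum]
        rw [Finset.sum_comm]
        exact Finset.sum_congr rfl fun n _ => Finset.sum_congr rfl fun i _ => smul_comm _ _ _
      · simp [cesaro, avg]
    rw [this, norm_smul, norm_inv, show ‖(S : ℂ) + 1‖ = (S : ℝ) + 1 by
      rw [← Nat.cast_one (R := ℂ), ← Nat.cast_add, Complex.norm_natCast]; simp, div_eq_inv_mul]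
    refine mul_le_mul_of_nonneg_left ?_ (by positivity)
    linarith [norm_sub_le (stepAvg W φ a (S + 1)) (stepAvg W φ a 0),
      norm_stepAvg_le W φ a (S + 1), norm_stepAvg_le W φ a 0]
  refine squeeze_zero (fun _ => norm_nonneg _) e ?_
  refine Tendsto.mono_left ?_ (Ultrafilter.of_le atTop)
  exact tendsto_const_nhds.div_atTop (tendsto_natCast_atTop_atTop.atTop_add tendsto_const_nhds)

theorem G_contAt {ξ : H} {T : ℝ → ℝ} (hξ : IsTrVec M ξ) (h : ContAt ξ T φ) :
    ContAt ξ T (G W φ) := by
  intro ε hε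
  obtain ⟨F, hF, hcard, hb⟩ := h ε hε
  refine ⟨F, hF, hcard, fun a => (isWLim_avgLim W φ a).norm_ev_le fun S => ?_⟩
  rw [cesaro, ev_avg]
  refine norm_avg_le fun n => ?_
  have := nonempty_word W (n : ℕ)
  rw [stepAvg, ev_avg]
  refine norm_avg_le fun y => ?_
  rw [norm_ev_mul_unitary hξ _ (Unitary.star_mem (word_mem W y))]
  refine (hb _).trans (le_of_eq ?_)
  rw [CStarRing.norm_mul_mem_unitary _ (word_mem W y)]
  congr 2
  exact Finset.sum_congr rfl fun η hη => norm_ev_mul_unitary (hF η hη) _ (word_mem W y)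

theorem stmtAvg : Iface.StmtAvg.{u} := by
  intro H _ _ _ M W
  refine ⟨G W, fun φ a => norm_avgLim_le W φ a, G_harm W,
    fun ξ T hξ _ φ => G_contAt W φ hξ, ?_, ?_, ?_⟩
  · intro c φ
    refine ContinuousLinearMap.ext fun a => avgLim_eq W _ a ?_
    have e : cesaro W ((ContinuousLinearMap.mul ℂ (Alg M) c).comp φ) a =
        fun S => c * cesaro W φ a S := by
      funext S
      simp only [cesaro, stepAvg, avg, ContinuousLinearMap.comp_apply,
        ContinuousLinearMap.mul_apply', Finset.mul_sum, mul_smul_comm, mul_assoc]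
    rw [e]
    exact (isWLim_avgLim W φ a).mul_left c
  · intro v φ
    refine ContinuousLinearMap.ext fun a => avgLim_eq W _ a ?_
    have e : cesaro W (φ.comp (ContinuousLinearMap.mul ℂ (Alg M) v)) a = cesaro W φ (v * a) := by
      funext S
      simp only [cesaro, stepAvg, avg, ContinuousLinearMap.comp_apply,
        ContinuousLinearMap.mul_apply', mul_assoc]
    rw [e]
    exact isWLim_avgLim W φ (v * a)
  · intro c
    refine ContinuousLinearMap.ext fun a => avgLim_eq W _ a ?_
    have e : cesaro W (ContinuousLinearMap.mul ℂ (Alg M) c) a = fun _ => c * a := by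
      funext S
      have hs : ∀ n, stepAvg W (ContinuousLinearMap.mul ℂ (Alg M) c) a n = c * a := fun n => by
        have := nonempty_word W n
        rw [stepAvg, avg_congr (g := fun _ => c * a) fun y => ?_, avg_const]
        rw [ContinuousLinearMap.mul_apply', mul_assoc c, mul_assoc a, mul_star_word, mul_one]
      simp only [cesaro, hs, avg_const]
    rw [e]
    exact IsWLim.const _ _

end Vale.Agent.P082.Avg
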