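import Vale.Agent.P082.Avg.Tools

/-!
# The martingale of a harmonic map
-/

namespace Vale.Agent.P082.Avg

open Filter

universe u

variable {H : Type u} [NormedAddCommGroup H] [InnerProductSpace ℂ H] [CompleteSpace H]
variable {M : VonNeumannAlgebra H} {W : Walk M} {ξ : H} {C : ℝ} {T : ℝ → ℝ}
  {G : Alg M →L[ℂ] Alg M}

theorem harm_word (hG : Harm W ξ C T G) :
    ∀ (n : ℕ) (a : Alg M),
      avg (fun y : Fin n → Fin W.size => G (a * W.word y) * star (W.word y)) = G a := by
  intro n
  induction n with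
  | zero =>
    intro a
    have := nonempty_word W 0
    rw [avg_congr (g := fun _ => G a) fun y => by simp [word_zero], avg_const]
  | succ n ih =>
    intro a
    rw [← avg_equiv (Fin.consEquiv fun _ => Fin W.size), avg_prod, hG.harm a]
    refine avg_congr fun i => ?_
    rw [← ih (a * W.g i), ← LinearMap.mulRight_apply ℂ, avg_map]
    refine avg_congr fun y => ?_
    rw [LinearMap.mulRight_apply, show (Fin.consEquiv fun _ => Fin W.size) (i, y) = Fin.cons i y
      from rfl, word_cons, star_mul, mul_assoc a, mul_assoc (G _)]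

/-- `E |G(a y_n) ξ|²`. -/
noncomputable def sq (W : Walk M) (ξ : H) (G : Alg M →L[ℂ] Alg M) (a : Alg M) (n : ℕ) : ℝ :=
  avgR fun y : Fin n → Fin W.size => ‖ev ξ (G (a * W.word y))‖ ^ 2

theorem mart_eq (hξ : IsTrVec M ξ) (hG : Harm W ξ C T G) (a : Alg M) (n R : ℕ) :
    avgR (fun p : (Fin n → Fin W.size) × (Fin R → Fin W.size) =>
      ‖ev ξ (G (a * W.word p.1 * W.word p.2) * star (W.word p.2) - G (a * W.word p.1))‖ ^ 2) =
      sq W ξ G a (n + R) - sq W ξ G a n := by
  have := nonempty_word W R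
  have e : sq W ξ G a (n + R) = avgR fun y : Fin n → Fin W.size => avgR fun y' : Fin R → Fin W.size =>
      ‖ev ξ (G (a * W.word y * W.word y'))‖ ^ 2 := by
    rw [sq, ← avgR_equiv (Fin.appendEquiv n R), avgR_prod]
    refine avgR_congr fun y => avgR_congr fun y' => ?_
    rw [show (Fin.appendEquiv n R) (y, y') = Fin.append y y' from rfl, word_append, mul_assoc]
  rw [avgR_prod, e, sq, ← avgR_sub]
  refine avgR_congr fun y => ?_
  set v : (Fin R → Fin W.size) → H :=
    fun y' => ev ξ (G (a * W.word y * W.word y') * star (W.word y')) with hv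
  have hm : avg v = ev ξ (G (a * W.word y)) := by
    rw [hv, ← ev_avg, harm_word hG]
  have h1 := avgR_norm_sub_sq v
  rw [hm] at h1
  simp only [hv] at h1
  simp only [ev_sub]
  rw [h1]
  congr 1
  refine avgR_congr fun y' => ?_
  rw [norm_ev_mul_unitary hξ _ (Unitary.star_mem (word_mem W y'))]

theorem sq_le (hξ : IsTrVec M ξ) (hG : Harm W ξ C T G) (a : Alg M) (n : ℕ) :
    sq W ξ G a n ≤ (C * ‖a‖) ^ 2 := by
  have := nonempty_word W n
  refine avgR_le fun y => pow_le_pow_left₀ (norm_nonneg _) ?_ 2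
  refine (norm_ev_le hξ _).trans ((hG.bound _).trans (le_of_eq ?_))
  rw [CStarRing.norm_mul_mem_unitary _ (word_mem W y)]

theorem stmtMart : Iface.StmtMart.{u} := by
  intro H _ _ _ M W ξ C T G hξ hG a
  refine ⟨fun n => harm_word hG n a, fun ε hε => ?_⟩
  have hb : BddAbove (Set.range (sq W ξ G a)) :=
    ⟨(C * ‖a‖) ^ 2, by rintro _ ⟨n, rfl⟩; exact sq_le hξ hG a n⟩
  have hmono : Monotone (sq W ξ G a) := monotone_nat_of_le_succ fun n => by
    have := mart_eq hξ hG a n 1
    linarith [avgR_nonneg (f := fun p : (Fin n → Fin W.size) × (Fin 1 → Fin W.size) =>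
      ‖ev ξ (G (a * W.word p.1 * W.word p.2) * star (W.word p.2) - G (a * W.word p.1))‖ ^ 2)
      fun p => sq_nonneg _]
  obtain ⟨n₁, hn₁⟩ := exists_lt_of_lt_ciSup (show (⨆ n, sq W ξ G a n) - ε < ⨆ n, sq W ξ G a n
    by linarith)
  refine ⟨n₁, fun n hn R => ?_⟩
  rw [mart_eq hξ hG a n R]
  have h1 := le_ciSup hb (n + R)
  have h2 := hmono hn
  linarith

end Vale.Agent.P082.Avg
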