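import Vale.Agent.P082.Iface

/-!
# Averages, words and weak operator limits
-/

namespace Vale.Agent.P082.Avg

open scoped InnerProductSpace Topology
open Filter

universe u

/-! ### Finite averages -/

section
variable {α β : Type*} [Fintype α] [Fintype β] {E : Type*} [AddCommGroup E] [Module ℂ E]

theorem avg_congr {f g : α → E} (h : ∀ a, f a = g a) : avg f = avg g := by
  rw [funext h]

theorem avg_equiv (e : α ≃ β) (f : β → E) : avg (fun a => f (e a)) = avg f := by
  unfold avg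
  rw [Fintype.card_congr e, e.sum_comp f]

theorem avg_prod (f : α × β → E) : avg f = avg fun a => avg fun b => f (a, b) := by
  unfold avg
  rw [Fintype.card_prod, Nat.cast_mul, mul_inv, mul_smul, ← Finset.smul_sum,
    Fintype.sum_prod_type]

theorem avg_const [Nonempty α] (x : E) : avg (fun _ : α => x) = x := by
  unfold avg
  rw [Finset.sum_const, Finset.card_univ, ← Nat.cast_smul_eq_nsmul ℂ, smul_smul,
    inv_mul_cancel₀ (Nat.cast_ne_zero.2 Fintype.card_ne_zero), one_smul]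

theorem avg_map {F : Type*} [AddCommGroup F] [Module ℂ F] (L : E →ₗ[ℂ] F) (f : α → E) :
    L (avg f) = avg fun a => L (f a) := by
  unfold avg
  rw [map_smul, map_sum]

theorem avgR_congr {f g : α → ℝ} (h : ∀ a, f a = g a) : avgR f = avgR g := by
  rw [funext h]

theorem avgR_equiv (e : α ≃ β) (f : β → ℝ) : avgR (fun a => f (e a)) = avgR f := by
  unfold avgR
  rw [Fintype.card_congr e, e.sum_comp f]

theorem avgR_prod (f : α × β → ℝ) : avgR f = avgR fun a => avgR fun b => f (a, b) := by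
  unfold avgR
  rw [Fintype.card_prod, Nat.cast_mul, mul_inv, mul_assoc, ← Finset.mul_sum,
    Fintype.sum_prod_type]

theorem avgR_sub (f g : α → ℝ) : avgR (fun a => f a - g a) = avgR f - avgR g := by
  unfold avgR
  rw [Finset.sum_sub_distrib, mul_sub]

theorem avgR_nonneg {f : α → ℝ} (h : ∀ a, 0 ≤ f a) : 0 ≤ avgR f :=
  mul_nonneg (inv_nonneg.2 (Nat.cast_nonneg _)) (Finset.sum_nonneg fun a _ => h a)

theorem avgR_le [Nonempty α] {f : α → ℝ} {B : ℝ} (h : ∀ a, f a ≤ B) : avgR f ≤ B := by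
  unfold avgR
  rw [inv_mul_le_iff₀ (Nat.cast_pos.2 Fintype.card_pos)]
  refine (Finset.sum_le_sum fun a _ => h a).trans (le_of_eq ?_)
  rw [Finset.sum_const, Finset.card_univ, nsmul_eq_mul]

end

theorem norm_avg_le {α : Type*} [Fintype α] [Nonempty α] {E : Type*} [NormedAddCommGroup E]
    [NormedSpace ℂ E] {f : α → E} {B : ℝ} (h : ∀ a, ‖f a‖ ≤ B) : ‖avg f‖ ≤ B := by
  unfold avg
  rw [norm_smul, norm_inv, Complex.norm_natCast, inv_mul_le_iff₀ (Nat.cast_pos.2 Fintype.card_pos)]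
  refine (norm_sum_le_of_le _ fun a _ => h a).trans (le_of_eq ?_)
  rw [Finset.sum_const, Finset.card_univ, nsmul_eq_mul]

/-- The variance identity. -/
theorem avgR_norm_sub_sq {α : Type*} [Fintype α] [Nonempty α] {E : Type*} [NormedAddCommGroup E]
    [InnerProductSpace ℂ E] (v : α → E) :
    avgR (fun a => ‖v a - avg v‖ ^ 2) = avgR (fun a => ‖v a‖ ^ 2) - ‖avg v‖ ^ 2 := by
  have hN : (Fintype.card α : ℝ) ≠ 0 := Nat.cast_ne_zero.2 Fintype.card_ne_zero
  have hs : ∑ a, v a = (Fintype.card α : ℂ) • avg v := by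
    unfold avg
    rw [smul_smul, mul_inv_cancel₀ (Nat.cast_ne_zero.2 Fintype.card_ne_zero), one_smul]
  have h1 : ∑ a, RCLike.re ⟪v a, avg v⟫_ℂ = (Fintype.card α : ℝ) * ‖avg v‖ ^ 2 := by
    rw [← map_sum, ← sum_inner, hs, inner_smul_left, inner_self_eq_norm_sq_to_K]
    simp [← Complex.ofReal_pow]
  unfold avgR
  simp only [norm_sub_sq (𝕜 := ℂ), Finset.sum_add_distrib, Finset.sum_sub_distrib,
    ← Finset.mul_sum, h1, Finset.sum_const, Finset.card_univ, nsmul_eq_mul]
  field_simp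
  ring

variable {H : Type u} [NormedAddCommGroup H] [InnerProductSpace ℂ H] [CompleteSpace H]
variable {M : VonNeumannAlgebra H}

/-! ### Evaluation at a tracial vector -/

/-- Evaluation as a linear map. -/
noncomputable def evL (ξ : H) : Alg M →ₗ[ℂ] H where
  toFun := ev ξ
  map_add' a b := by simp [ev]
  map_smul' c a := by simp [ev]

theorem ev_sub (ξ : H) (a b : Alg M) : ev ξ (a - b) = ev ξ a - ev ξ b :=
  map_sub (evL ξ) a b

theorem ev_avg {α : Type*} [Fintype α] (ξ : H) (f : α → Alg M) :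
    ev ξ (avg f) = avg fun a => ev ξ (f a) :=
  avg_map (evL ξ) f

theorem coe_mem_unitary {u : Alg M} (hu : u ∈ unitary (Alg M)) :
    (u : H →L[ℂ] H) ∈ unitary (H →L[ℂ] H) := by
  rw [Unitary.mem_iff] at hu ⊢
  exact ⟨congrArg Subtype.val hu.1, congrArg Subtype.val hu.2⟩

theorem norm_ev_le {ξ : H} (hξ : IsTrVec M ξ) (a : Alg M) : ‖ev ξ a‖ ≤ ‖a‖ :=
  ((a : H →L[ℂ] H).le_opNorm ξ).trans (by rw [hξ.norm, mul_one]; exact le_rfl)

/-- Right multiplication by a unitary is isometric at a tracial vector. -/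
theorem norm_ev_mul_unitary {ξ : H} (hξ : IsTrVec M ξ) (b : Alg M) {u : Alg M}
    (hu : u ∈ unitary (Alg M)) : ‖ev ξ (b * u)‖ = ‖ev ξ b‖ := by
  rw [← hξ.star_norm (b * u), ← hξ.star_norm b, star_mul]
  exact ContinuousLinearMap.norm_map_of_mem_unitary (coe_mem_unitary (Unitary.star_mem hu)) _

/-! ### Words -/

variable (W : Walk M)

theorem nonempty_fin : Nonempty (Fin W.size) := ⟨⟨0, W.size_pos⟩⟩

theorem nonempty_word (n : ℕ) : Nonempty (Fin n → Fin W.size) :=
  ⟨fun _ => ⟨0, W.size_pos⟩⟩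

theorem word_mem {n : ℕ} (y : Fin n → Fin W.size) : W.word y ∈ unitary (Alg M) :=
  Submonoid.list_prod_mem _ fun x hx => by
    obtain ⟨i, rfl⟩ := (List.mem_ofFn' _ _).1 hx
    exact W.unit _

theorem word_zero (y : Fin 0 → Fin W.size) : W.word y = 1 := by
  simp [Walk.word]

theorem word_cons {n : ℕ} (i : Fin W.size) (y : Fin n → Fin W.size) :
    W.word (Fin.cons i y) = W.g i * W.word y := by
  simp [Walk.word, List.ofFn_succ]

theorem word_append {n R : ℕ} (y : Fin n → Fin W.size) (y' : Fin R → Fin W.size) :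
    W.word (Fin.append y y') = W.word y * W.word y' := by
  unfold Walk.word
  rw [← List.prod_append, ← List.ofFn_fin_append]
  congr 2
  funext i
  refine Fin.addCases (fun j => ?_) (fun j => ?_) i <;> simp

theorem mul_star_word {n : ℕ} (y : Fin n → Fin W.size) : W.word y * star (W.word y) = 1 :=
  Unitary.mul_star_self_of_mem (word_mem W y)

/-! ### Weak operator limits in the algebra -/

/-- `a` is the weak operator limit of `f` along `U`. -/
def IsWLim {ι : Type*} (U : Ultrafilter ι) (f : ι → Alg M) (a : Alg M) : Prop :=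
  ∀ v w : H, Tendsto (fun i => ⟪(f i : H →L[ℂ] H) v, w⟫_ℂ) (U : Filter ι)
    (𝓝 ⟪(a : H →L[ℂ] H) v, w⟫_ℂ)

variable {ι : Type*} {U : Ultrafilter ι} {f g : ι → Alg M} {a b : Alg M}

theorem IsWLim.unique (ha : IsWLim U f a) (hb : IsWLim U f b) : a = b :=
  Subtype.ext <| ContinuousLinearMap.ext fun v =>
    ext_inner_right ℂ fun w => tendsto_nhds_unique (ha v w) (hb v w)

theorem IsWLim.const (U : Ultrafilter ι) (a : Alg M) : IsWLim U (fun _ => a) a :=
  fun _ _ => tendsto_const_nhds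

theorem IsWLim.add (ha : IsWLim U f a) (hb : IsWLim U g b) :
    IsWLim U (fun i => f i + g i) (a + b) := fun v w => by
  simpa [inner_add_left] using (ha v w).add (hb v w)

theorem IsWLim.smul (c : ℂ) (ha : IsWLim U f a) :
    IsWLim U (fun i => c • f i) (c • a) := fun v w => by
  simpa [inner_smul_left, mul_comm] using (ha v w).const_mul (starRingEnd ℂ c)

theorem IsWLim.mul_left (c : Alg M) (ha : IsWLim U f a) :
    IsWLim U (fun i => c * f i) (c * a) := fun v w => by
  simpa [ContinuousLinearMap.adjoint_inner_right] using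
    ha v (ContinuousLinearMap.adjoint (c : H →L[ℂ] H) w)

theorem IsWLim.mul_right (c : Alg M) (ha : IsWLim U f a) :
    IsWLim U (fun i => f i * c) (a * c) := fun v w => by
  simpa using ha ((c : H →L[ℂ] H) v) w

theorem IsWLim.sum {κ : Type*} (s : Finset κ) {F : κ → ι → Alg M} {A : κ → Alg M}
    (h : ∀ k, IsWLim U (F k) (A k)) : IsWLim U (fun i => ∑ k ∈ s, F k i) (∑ k ∈ s, A k) := by
  classical
  induction s using Finset.induction with
  | empty => simpa using IsWLim.const U (0 : Alg M)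
  | insert k s hk ih => simpa [Finset.sum_insert hk] using (h k).add ih

theorem IsWLim.avg {κ : Type*} [Fintype κ] {F : κ → ι → Alg M} {A : κ → Alg M}
    (h : ∀ k, IsWLim U (F k) (A k)) :
    IsWLim U (fun i => Vale.Agent.P082.avg fun k => F k i) (Vale.Agent.P082.avg A) :=
  (IsWLim.sum Finset.univ h).smul _

theorem IsWLim.congr_of_norm (ha : IsWLim U f a)
    (h : Tendsto (fun i => ‖f i - g i‖) (U : Filter ι) (𝓝 0)) : IsWLim U g a := fun v w => by
  have h0 : Tendsto (fun i => ⟪(g i : H →L[ℂ] H) v, w⟫_ℂ - ⟪(f i : H →L[ℂ] H) v, w⟫_ℂ)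
      (U : Filter ι) (𝓝 0) := by
    refine squeeze_zero_norm (fun i => ?_) (by simpa using h.mul_const (‖v‖ * ‖w‖))
    rw [← inner_sub_left, ← sub_apply]
    refine (norm_inner_le_norm _ _).trans ?_
    have hle := ((g i : H →L[ℂ] H) - (f i : H →L[ℂ] H)).le_opNorm v
    rw [show ‖(g i : H →L[ℂ] H) - (f i : H →L[ℂ] H)‖ = ‖f i - g i‖ from
      (norm_sub_rev _ _).trans rfl] at hle
    rw [← mul_assoc]
    exact mul_le_mul_of_nonneg_right hle (norm_nonneg _)
  simpa using h0.add (ha v w)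

theorem IsWLim.norm_ev_le {ξ : H} {B : ℝ} (ha : IsWLim U f a) (hf : ∀ i, ‖ev ξ (f i)‖ ≤ B) :
    ‖ev ξ a‖ ≤ B := by
  obtain ⟨i, -⟩ := U.nonempty_of_mem univ_mem
  have hB : 0 ≤ B := (norm_nonneg _).trans (hf i)
  have h : ‖ev ξ a‖ * ‖ev ξ a‖ ≤ B * ‖ev ξ a‖ := by
    have hlim := (ha ξ (ev ξ a)).norm
    have e : ‖⟪ev ξ a, ev ξ a⟫_ℂ‖ = ‖ev ξ a‖ * ‖ev ξ a‖ := by
      rw [inner_self_eq_norm_sq_to_K, norm_pow, pow_two]
      simp
    rw [← e]
    refine le_of_tendsto hlim (Eventually.of_forall fun i => ?_)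
    exact (norm_inner_le_norm _ _).trans (mul_le_mul_of_nonneg_right (hf i) (norm_nonneg _))
  rcases (norm_nonneg (ev ξ a)).eq_or_lt with h0 | h0
  · rw [← h0]; exact hB
  · exact le_of_mul_le_mul_right h h0

theorem exists_wLim (U : Ultrafilter ι) (f : ι → Alg M) {C : ℝ} (hf : ∀ i, ‖f i‖ ≤ C) :
    ∃ a : Alg M, IsWLim U f a ∧ ‖a‖ ≤ C := by
  have hb : ∀ (v w : H) i, ‖⟪(f i : H →L[ℂ] H) v, w⟫_ℂ‖ ≤ C * ‖v‖ * ‖w‖ := fun v w i =>
    (norm_inner_le_norm _ _).trans (mul_le_mul_of_nonneg_right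
      (((f i : H →L[ℂ] H).le_opNorm v).trans (mul_le_mul_of_nonneg_right (hf i) (norm_nonneg _)))
      (norm_nonneg _))
  have hlim : ∀ v w : H, ∃ L, ‖L‖ ≤ C * ‖v‖ * ‖w‖ ∧
      Tendsto (fun i => ⟪(f i : H →L[ℂ] H) v, w⟫_ℂ) (U : Filter ι) (𝓝 L) := by
    intro v w
    obtain ⟨L, hL, hL2⟩ :=
      (isCompact_closedBall (0 : ℂ) (C * ‖v‖ * ‖w‖)).ultrafilter_le_nhds
        (U.map fun i => ⟪(f i : H →L[ℂ] H) v, w⟫_ℂ)
        (le_principal_iff.2 (Filter.mem_map.2
          (univ_mem' fun i => mem_closedBall_zero_iff.2 (hb v w i))))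
    exact ⟨L, by simpa using hL, hL2⟩
  choose L hLb hL using hlim
  have uniq : ∀ v w l, Tendsto (fun i => ⟪(f i : H →L[ℂ] H) v, w⟫_ℂ) (U : Filter ι) (𝓝 l) →
      L v w = l := fun v w l hl => tendsto_nhds_unique (hL v w) hl
  let B : H →ₗ⋆[ℂ] H →ₗ[ℂ] ℂ := LinearMap.mk₂'ₛₗ (starRingEnd ℂ) (RingHom.id ℂ) L
    (fun v v' w => uniq _ _ _ (by simpa [inner_add_left] using (hL v w).add (hL v' w)))
    (fun c v w => uniq _ _ _ (by
      simpa [inner_smul_left, mul_comm] using (hL v w).const_mul (starRingEnd ℂ c)))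
    (fun v w w' => uniq _ _ _ (by simpa [inner_add_right] using (hL v w).add (hL v w')))
    (fun c v w => uniq _ _ _ (by simpa [inner_smul_right] using (hL v w).const_mul c))
  set a := InnerProductSpace.continuousLinearMapOfBilin (B.mkContinuous₂ C fun v w => hLb v w)
    with ha
  have hap : ∀ v w, ⟪a v, w⟫_ℂ = L v w := fun v w =>
    InnerProductSpace.continuousLinearMapOfBilin_apply _ v w
  have hmem : a ∈ M.toStarSubalgebra := by
    change a ∈ M
    rw [← VonNeumannAlgebra.commutant_commutant M, VonNeumannAlgebra.mem_commutant_iff]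
    intro g hg
    rw [VonNeumannAlgebra.mem_commutant_iff] at hg
    refine ContinuousLinearMap.ext fun v => ext_inner_right ℂ fun w => ?_
    change ⟪g (a v), w⟫_ℂ = ⟪a (g v), w⟫_ℂ
    rw [← ContinuousLinearMap.adjoint_inner_right, hap, hap]
    refine tendsto_nhds_unique (hL v _) (Tendsto.congr (fun i => ?_) (hL (g v) w))
    rw [ContinuousLinearMap.adjoint_inner_right]
    exact congrArg (fun T : H →L[ℂ] H => ⟪T v, w⟫_ℂ) (hg _ (f i).2)
  obtain ⟨i, -⟩ := U.nonempty_of_mem univ_mem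
  have hC : 0 ≤ C := (norm_nonneg _).trans (hf i)
  refine ⟨⟨a, hmem⟩, fun v w => by rw [hap]; exact hL v w, ?_⟩
  refine ContinuousLinearMap.opNorm_le_bound _ hC fun v => ?_
  have h1 : ‖a v‖ * ‖a v‖ ≤ C * ‖v‖ * ‖a v‖ := by
    have := hLb v (a v)
    rw [← hap, inner_self_eq_norm_sq_to_K, norm_pow, pow_two] at this
    simpa using this
  rcases (norm_nonneg (a v)).eq_or_lt with h0 | h0
  · show ‖a v‖ ≤ _
    rw [← h0]; positivity
  · exact le_of_mul_le_mul_right h1 h0

end Vale.Agent.P082.Avg
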